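import Vale.Agent.P065.UB.View.View
import Vale.Agent.P065.UB.Out2

/-!
# P065, upper bound: output of the middle part (helper752)
-/

set_option autoImplicit false

namespace Vale.Agent.P065.UB.View

open Finset Vale.Agent.P065.UB Vale.Agent.P065.UB.RankAux Vale.Agent.P065.H183


theorem view_mono {K K' lam : ℝ} {Q : Finset Pt} {W : Finset ℕ} {I : ℕ → Set ℝ}
    {T R : ℕ → Finset Pt} (h : View K lam Q W I T R) (hK : K ≤ K') : View K' lam Q W I T R := by
  have h2 := h.two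
  have h1 := h.one
  have hlam : 0 ≤ lam := by linarith
  exact
    { two := h2.trans hK
      one := h1
      xinj := h.xinj
      conn := h.conn
      disj := h.disj
      cardW := h.cardW.trans (mul_le_mul_of_nonneg_right hK (by positivity))
      cardW' := h.cardW'.trans (mul_le_mul_of_nonneg_right hK (Nat.cast_nonneg _))
      subT := h.subT
      subR := h.subR
      cardT := fun w hw => (h.cardT w hw).trans (mul_le_mul_of_nonneg_right hK (Nat.cast_nonneg _))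
      cardR := fun w hw => (h.cardR w hw).trans
        (mul_le_mul_of_nonneg_right (mul_le_mul_of_nonneg_right hK hlam) (Nat.cast_nonneg _))
      touch := fun p hp => (h.touch p hp).trans (mul_le_mul_of_nonneg_right hK hlam)
      pairs := fun w hw => (h.pairs w hw).trans (mul_le_mul_of_nonneg_right hK (by positivity))
      see := fun w hw x hx => (h.see w hw x hx).trans
        (mul_le_mul_of_nonneg_right (mul_le_mul_of_nonneg_right hK hlam) (Nat.cast_nonneg _))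
      star := fun S H hH Z hZ => (h.star S H hH Z hZ).trans (by
        apply mul_le_mul_of_nonneg_right _ (by positivity)
        exact mul_le_mul_of_nonneg_right hK (by positivity)) }

/-- arithmetic of the join property -/
theorem join_arith (K C lam q m t D f S : ℝ) (n : ℕ) (hK : 2 ≤ K) (hC : 1 ≤ C) (hCK : C ≤ K)
    (hlam : 0 < lam) (hm : 0 ≤ m) (ht : 0 < t) (hS : 0 ≤ S)
    (h1 : t ^ (1 / 3 : ℝ) ≤ K ^ n * D) (h2 : m * D ≤ 2 * f) (h3 : lam * t ≤ K * q)
    (h4 : f ^ 6 ≤ C * (2 * t) ^ 6 * (S + 1)) :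
    lam ^ 4 * m ^ 6 ≤ K ^ (6 * n + 17) * q ^ 4 * (S + 1) := by
  have hK0 : 0 < K := by linarith
  have hK1 : 1 ≤ K := by linarith
  have htp : 0 < t ^ (1 / 3 : ℝ) := Real.rpow_pos_of_pos ht _
  have hD : 0 < D := by
    by_contra hD
    have : K ^ n * D ≤ 0 := mul_nonpos_of_nonneg_of_nonpos (by positivity) (not_lt.1 hD)
    linarith
  have ht6 : t ^ 2 ≤ (K ^ n) ^ 6 * D ^ 6 := by
    calc t ^ 2 = (t ^ (1 / 3 : ℝ)) ^ 6 := by
          rw [← Real.rpow_natCast (t ^ (1 / 3 : ℝ)) 6, ← Real.rpow_mul ht.le]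
          norm_num
      _ ≤ (K ^ n * D) ^ 6 := pow_le_pow_left₀ htp.le h1 6
      _ = (K ^ n) ^ 6 * D ^ 6 := by ring
  have h5 : (m * D) ^ 6 ≤ 64 * (C * (64 * t ^ 6) * (S + 1)) := by
    calc (m * D) ^ 6 ≤ (2 * f) ^ 6 := pow_le_pow_left₀ (by positivity) h2 6
      _ = 64 * f ^ 6 := by ring
      _ ≤ 64 * (C * (2 * t) ^ 6 * (S + 1)) := by linarith
      _ = 64 * (C * (64 * t ^ 6) * (S + 1)) := by ring
  have h6 : m ^ 6 * t ^ 2 ≤ (K ^ n) ^ 6 * (64 * (C * (64 * t ^ 6) * (S + 1))) := by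
    calc m ^ 6 * t ^ 2 ≤ m ^ 6 * ((K ^ n) ^ 6 * D ^ 6) :=
          mul_le_mul_of_nonneg_left ht6 (by positivity)
      _ = (K ^ n) ^ 6 * (m * D) ^ 6 := by ring
      _ ≤ _ := mul_le_mul_of_nonneg_left h5 (by positivity)
  have h7 : m ^ 6 ≤ (K ^ n) ^ 6 * (4096 * C) * t ^ 4 * (S + 1) := by
    have : m ^ 6 * t ^ 2 ≤ ((K ^ n) ^ 6 * (4096 * C) * t ^ 4 * (S + 1)) * t ^ 2 := by
      calc m ^ 6 * t ^ 2 ≤ (K ^ n) ^ 6 * (64 * (C * (64 * t ^ 6) * (S + 1))) := h6
        _ = _ := by ring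
    exact le_of_mul_le_mul_right this (by positivity)
  have h8 : 4096 * C ≤ K ^ 13 := by
    have h9 : (4096 : ℝ) ≤ K ^ 12 := by
      calc (4096 : ℝ) = 2 ^ 12 := by norm_num
        _ ≤ K ^ 12 := pow_le_pow_left₀ (by norm_num) hK 12
    calc 4096 * C ≤ K ^ 12 * K := mul_le_mul h9 hCK (by linarith) (by positivity)
      _ = K ^ 13 := by ring
  have h10 : (lam * t) ^ 4 ≤ (K * q) ^ 4 := pow_le_pow_left₀ (by positivity) h3 4
  calc lam ^ 4 * m ^ 6 ≤ lam ^ 4 * ((K ^ n) ^ 6 * (4096 * C) * t ^ 4 * (S + 1)) :=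
        mul_le_mul_of_nonneg_left h7 (by positivity)
    _ = (K ^ n) ^ 6 * (4096 * C) * ((lam * t) ^ 4 * (S + 1)) := by ring
    _ ≤ (K ^ n) ^ 6 * K ^ 13 * ((K * q) ^ 4 * (S + 1)) := by
        apply mul_le_mul
        · exact mul_le_mul_of_nonneg_left h8 (by positivity)
        · exact mul_le_mul_of_nonneg_right h10 (by linarith)
        · positivity
        · positivity
    _ = (K ^ n) ^ 6 * K ^ 17 * q ^ 4 * (S + 1) := by ring
    _ = K ^ (6 * n + 17) * q ^ 4 * (S + 1) := by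
        rw [pow_add, ← pow_mul, mul_comm n 6]

open Classical in
/-- the sum of the degrees over `M` is at most twice the number of edges with an end in `M` -/
theorem sum_dg_le (P : Finset Pt) (k : ℕ) (Q : Finset Pt) (I : Set ℝ) (M : Finset Pt) :
    ∑ x ∈ M, dg P k Q I x ≤ 2 * #{e ∈ EdIn P k Q I | e.1 ∈ M ∨ e.2 ∈ M} := by
  set F : Finset (Pt × Pt) := {e ∈ EdIn P k Q I | e.1 ∈ M ∨ e.2 ∈ M} with hF
  have h1 : ∀ x ∈ M, dg P k Q I x ≤ #{e ∈ F | e.1 = x} + #{e ∈ F | e.2 = x} := by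
    intro x hx
    unfold dg
    rw [Finset.filter_or]
    refine (Finset.card_union_le _ _).trans (Nat.add_le_add ?_ ?_)
    · apply Finset.card_le_card
      intro e he
      obtain ⟨h1, h2⟩ := Finset.mem_filter.1 he
      exact Finset.mem_filter.2 ⟨Finset.mem_filter.2 ⟨h1, Or.inl (by rw [h2]; exact hx)⟩, h2⟩
    · apply Finset.card_le_card
      intro e he
      obtain ⟨h1, h2⟩ := Finset.mem_filter.1 he
      exact Finset.mem_filter.2 ⟨Finset.mem_filter.2 ⟨h1, Or.inr (by rw [h2]; exact hx)⟩, h2⟩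
  have aux : ∀ g : Pt × Pt → Pt, ∑ x ∈ M, #{e ∈ F | g e = x} ≤ #F := by
    intro g
    rw [← Finset.card_biUnion]
    · apply Finset.card_le_card
      intro e he
      obtain ⟨x, _, hx⟩ := Finset.mem_biUnion.1 he
      exact (Finset.mem_filter.1 hx).1
    · intro x _ y _ hne
      rw [Function.onFun, Finset.disjoint_left]
      intro e he he'
      exact hne ((Finset.mem_filter.1 he).2.symm.trans (Finset.mem_filter.1 he').2)
  calc ∑ x ∈ M, dg P k Q I x ≤ ∑ x ∈ M, (#{e ∈ F | e.1 = x} + #{e ∈ F | e.2 = x}) :=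
        Finset.sum_le_sum h1
    _ = ∑ x ∈ M, #{e ∈ F | e.1 = x} + ∑ x ∈ M, #{e ∈ F | e.2 = x} := Finset.sum_add_distrib
    _ ≤ #F + #F := Nat.add_le_add (aux _) (aux _)
    _ = 2 * #F := by ring

open Classical in
/-- from `Plane` and the field `s` to `ViewJ` -/
theorem viewJ_of (hV : StView) (hJ : StJoin) :
    ∃ (C : ℕ) (C0 : ℝ), 1 ≤ C0 ∧ ∀ (lam K : ℝ) (P : Finset Pt) (k : ℕ) (Q : Finset Pt)
    (W : Finset ℕ) (I : ℕ → Set ℝ) (T : ℕ → Finset Pt), Good P → Plane lam K P k Q W I T → 2 ≤ K →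
    C0 ≤ K → 1 ≤ lam → ∀ s : ℝ, (#Q : ℝ) ≤ K * lam * s →
    (∀ w ∈ W, 32 * ((#(EdBd P k Q (I w)) : ℝ) + 1) ≤ s) →
    (∀ w ∈ W, C0 * s ^ (4 / 3 : ℝ) ≤ #(EdIn P k Q (I w))) →
    ∃ (W' : Finset ℕ) (T' R' : ℕ → Finset Pt), W' ⊆ W ∧
      (∀ w ∈ W', T' w ⊆ T w) ∧ ViewJ (K ^ C) lam Q W' I T' R' := by
  obtain ⟨C, C0, hC0, view⟩ := hV
  obtain ⟨CJ, hCJ, join⟩ := hJ
  refine ⟨6 * C + 17, max C0 CJ, le_max_of_le_left hC0, ?_⟩
  intro lam K P k Q W I T hP hPl hK hCK hlam s hQs hbd hs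
  have hK1 : 1 ≤ K := by linarith
  have hK0 : 0 < K := by linarith
  have hCJK : CJ ≤ K := (le_max_right _ _).trans hCK
  have hs0 : 0 ≤ s ^ (4 / 3 : ℝ) ∨ W = ∅ := by
    by_cases h : W = ∅
    · exact Or.inr h
    · left
      obtain ⟨w0, hw0⟩ := Finset.nonempty_iff_ne_empty.2 h
      have h1 := hbd w0 hw0
      have h2 : (0 : ℝ) ≤ #(EdBd P k Q (I w0)) := Nat.cast_nonneg _
      exact Real.rpow_nonneg (by linarith) _
  obtain ⟨W', T', R', hWW, hTT, hdg, hview⟩ := view lam K P k Q W I T hP hPl hK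
    ((le_max_left _ _).trans hCK) hlam s hQs hbd (fun w hw => by
      refine le_trans (mul_le_mul_of_nonneg_right (le_max_left _ _) ?_) (hs w hw)
      rcases hs0 with h | h
      · exact h
      · rw [h] at hw; exact absurd hw (Finset.notMem_empty _))
  have hmono : K ^ C ≤ K ^ (6 * C + 17) := pow_le_pow_right₀ hK1 (by omega)
  refine ⟨W', T', R', hWW, hTT, { toView := view_mono hview hmono, joinR := ?_ }⟩
  intro w hw M hM
  have hw' := hWW hw
  have hMT : M ⊆ Tch P k Q (I w) := by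
    rw [← hPl.tch w hw']
    exact (hM.trans (hview.subR w hw)).trans (hTT w hw)
  set F : Finset (Pt × Pt) := {e ∈ EdIn P k Q (I w) | e.1 ∈ M ∨ e.2 ∈ M} with hF
  have hj := join P k Q (I w) hP hPl.sub (hPl.conn w hw') M hMT F (Finset.filter_subset _ _)
    (fun e he => (Finset.mem_filter.1 he).2)
  have ht := hPl.bd w hw'
  have htch := hPl.tch w hw'
  rw [htch] at ht
  set t : ℝ := (#(Tch P k Q (I w)) : ℝ) with htdef
  have ht8 : (8 : ℝ) ≤ t := by
    rw [htdef]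
    have : 8 ≤ #(Tch P k Q (I w)) := by omega
    exact_mod_cast this
  have ht0 : 0 < t := by linarith
  have hbt : (#(EdBd P k Q (I w)) : ℝ) ≤ t := by
    rw [htdef]
    have : #(EdBd P k Q (I w)) ≤ #(Tch P k Q (I w)) := by omega
    exact_mod_cast this
  have h3 : lam * t ≤ K * #Q := by
    have := hPl.cardT w hw'
    rwa [htch] at this
  -- the degree
  set D : ℝ := t ^ (1 / 3 : ℝ) / K ^ C with hD
  have hKC : 0 < K ^ C := by positivity
  have hDdg : ∀ x ∈ M, D ≤ dg P k Q (I w) x := by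
    intro x hx
    have := hdg w hw x (hM hx)
    rw [htch] at this
    rw [hD, div_le_iff₀ hKC, mul_comm]
    exact this
  have h2 : (#M : ℝ) * D ≤ 2 * #F := by
    calc (#M : ℝ) * D = ∑ x ∈ M, D := by rw [Finset.sum_const, nsmul_eq_mul]
      _ ≤ ∑ x ∈ M, (dg P k Q (I w) x : ℝ) := Finset.sum_le_sum hDdg
      _ = ((∑ x ∈ M, dg P k Q (I w) x : ℕ) : ℝ) := by push_cast; rfl
      _ ≤ ((2 * #F : ℕ) : ℝ) := by exact_mod_cast sum_dg_le P k Q (I w) M
      _ = 2 * #F := by push_cast; rfl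
  have h4 : (#F : ℝ) ^ 6 ≤ CJ * (2 * t) ^ 6 * (#(Sw M (I w)) + 1) := by
    refine hj.trans ?_
    apply mul_le_mul_of_nonneg_right _ (by positivity)
    apply mul_le_mul_of_nonneg_left _ (by linarith)
    exact pow_le_pow_left₀ (by positivity) (by linarith) 6
  exact join_arith K CJ lam #Q #M t D #F #(Sw M (I w)) C hK hCJ hCJK (by linarith)
    (Nat.cast_nonneg _) ht0 (Nat.cast_nonneg _)
    (le_of_eq (by rw [hD]; field_simp)) h2 h3 h4

theorem viewJ_mono {K K' lam : ℝ} {Q : Finset Pt} {W : Finset ℕ} {I : ℕ → Set ℝ}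
    {T R : ℕ → Finset Pt} (h : ViewJ K lam Q W I T R) (hK : K ≤ K') : ViewJ K' lam Q W I T R :=
  { toView := view_mono h.toView hK
    joinR := fun w hw M hM => (h.joinR w hw M hM).trans (by
      apply mul_le_mul_of_nonneg_right _ (by positivity)
      exact mul_le_mul_of_nonneg_right hK (by positivity)) }

theorem exists_rpow_ge {x : ℝ} (hx : 0 < x) (B : ℝ) : ∃ n₀ : ℕ, 1 ≤ n₀ ∧ ∀ n : ℕ, n₀ ≤ n →
    B ≤ (n : ℝ) ^ x := by
  have h := ((tendsto_rpow_atTop hx).comp tendsto_natCast_atTop_atTop).eventually_ge_atTop B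
  obtain ⟨n₀, hn₀⟩ := Filter.eventually_atTop.1 h
  exact ⟨max n₀ 1, le_max_right _ _, fun n hn => hn₀ n ((le_max_left _ _).trans hn)⟩

/-- **output of the middle part** -/
theorem stViewOut_of (hV : StView) (hJ : StJoin) : StViewOut := by
  classical
  obtain ⟨c, C0, hC0, view⟩ := viewJ_of hV hJ
  obtain ⟨C1, hC1, out⟩ := stOut2 C0 hC0
  have hc0 : (0 : ℝ) ≤ c := Nat.cast_nonneg c
  refine ⟨(c + 1) * C1, by positivity, fun ε hε hεC => ?_⟩
  have hCC : C1 ≤ (c + 1) * C1 := by nlinarith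
  have hε1 : ε < 1 / C1 := hεC.trans_le (one_div_le_one_div_of_le hC1 hCC)
  obtain ⟨n₁, hn₁⟩ := out ε hε hε1
  obtain ⟨n₂, hn₂1, hn₂⟩ := exists_rpow_ge (mul_pos hC1 hε) (max 2 C0)
  refine ⟨max n₁ n₂, fun P k hP hn hEd lam hl1 hl2 => ?_⟩
  have hn1 : n₁ ≤ #P := (le_max_left _ _).trans hn
  have hn2 : n₂ ≤ #P := (le_max_right _ _).trans hn
  have hnR : (1 : ℝ) ≤ #P := by exact_mod_cast hn₂1.trans hn2
  have hn0 : (0 : ℝ) < #P := by linarith
  have hK := hn₂ _ hn2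
  set K1 : ℝ := (#P : ℝ) ^ (C1 * ε) with hK1def
  have hK2 : 2 ≤ K1 := (le_max_left _ _).trans hK
  have hKC : C0 ≤ K1 := (le_max_right _ _).trans hK
  have hK11 : 1 ≤ K1 := by linarith
  have hpow : (#P : ℝ) ^ ((c + 1) * C1 * ε) = K1 ^ (c + 1) := by
    rw [hK1def, ← Real.rpow_natCast, ← Real.rpow_mul hn0.le]
    congr 1
    push_cast
    ring
  have hle : C1 * ε ≤ (c + 1) * C1 * ε := mul_le_mul_of_nonneg_right hCC hε.le
  have hl1' : (#P : ℝ) ^ (C1 * ε) ≤ lam :=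
    (Real.rpow_le_rpow_of_exponent_le hnR hle).trans hl1
  have hl2' : lam ≤ (#P : ℝ) ^ (1 / 4 - C1 * ε) :=
    hl2.trans (Real.rpow_le_rpow_of_exponent_le hnR (by linarith))
  obtain ⟨s0, Q, W, I, T, h⟩ := hn₁ P k hP hn1 hEd lam hl1' hl2'
  have hlam : 1 ≤ lam := hK11.trans hl1'
  obtain ⟨W', T', R', _, _, hview⟩ := view lam K1 P k Q W I T hP h.toPlane hK2 hKC hlam s0 h.s0_low
    (fun w hw => by
      have := h.s0_bd w hw
      have h2 : ((32 * (#(EdBd P k Q (I w)) + 1) : ℕ) : ℝ) ≤ s0 := by exact_mod_cast this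
      push_cast at h2
      exact h2)
    (fun w hw => by
      refine le_trans ?_ (h.s0_ed w hw)
      apply mul_le_mul_of_nonneg_right _ (by positivity)
      linarith)
  refine ⟨Q, W', I, T', R', h.sub, ?_, ?_⟩
  · rw [hpow]
    refine h.cardQ'.trans ?_
    apply mul_le_mul_of_nonneg_right _ (Nat.cast_nonneg _)
    apply mul_le_mul_of_nonneg_right _ (by positivity)
    calc K1 = K1 ^ 1 := (pow_one _).symm
      _ ≤ K1 ^ (c + 1) := pow_le_pow_right₀ hK11 (by omega)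
  · rw [hpow]
    exact viewJ_mono hview (pow_le_pow_right₀ hK11 (by omega))

end Vale.Agent.P065.UB.View
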