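import Vale.Agent.P065.UB.View.Defs
import Vale.Agent.P065.UB.Heavy
import Vale.Agent.P065.UB.H374.Heavy
import Vale.Agent.P065.U.H792.DeyY

/-!
# P065, upper bound: block [VIEW-RICH] (helper374)

`stRich : StRich`: the vantage points `T` (at least `s / 16` partners) and the rich points `R`
(at least `s` partners and degree at least `#EdIn / (4 #Tch)`) of one window.
-/

set_option autoImplicit false

namespace Vale.Agent.P065.UB.View

open Finset Vale.Agent.P065.UB Vale.Agent.P065.UB.RankAux Vale.Agent.P065.UB.H374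
  Vale.Agent.P065.U.H792

theorem slow_mono {P : Finset Pt} {k : ℕ} {Q : Finset Pt} {I : Set ℝ} {s t : ℕ} (h : s ≤ t) :
    Slow P k Q I s ⊆ Slow P k Q I t := by
  intro x hx
  obtain ⟨h1, h2⟩ := mem_Slow.1 hx
  exact mem_Slow.2 ⟨h1, lt_of_lt_of_le h2 h⟩

theorem sl_symm (p q : Pt) : sl p q = sl q p := by
  unfold sl
  rw [← neg_sub q.2 p.2, ← neg_sub q.1 p.1, neg_div_neg_eq]

theorem sl_of_Par {T : Finset Pt} {I : Set ℝ} {u v : Pt} (h : u ∈ Par T I v) : sl u v ∈ I := by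
  rcases (mem_Par.1 h).2.2 with h1 | h1
  · exact h1.2
  · rw [sl_symm]; exact h1.2

open Classical in
/-- the touched points of low degree carry few edges -/
theorem low_edges (P : Finset Pt) (k : ℕ) (Q : Finset Pt) (I : Set ℝ) (L : Finset Pt) (d : ℝ)
    (hL : ∀ x ∈ L, (dg P k Q I x : ℝ) ≤ d) :
    (#{e ∈ EdIn P k Q I | e.1 ∈ L ∨ e.2 ∈ L} : ℝ) ≤ #L * d := by
  have h1 : ({e ∈ EdIn P k Q I | e.1 ∈ L ∨ e.2 ∈ L} : Finset (Pt × Pt)) ⊆
      L.biUnion fun x => {e ∈ EdIn P k Q I | e.1 = x ∨ e.2 = x} := by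
    intro e he
    obtain ⟨h2, h3⟩ := mem_filter.1 he
    rw [mem_biUnion]
    rcases h3 with h3 | h3
    · exact ⟨e.1, h3, mem_filter.2 ⟨h2, Or.inl rfl⟩⟩
    · exact ⟨e.2, h3, mem_filter.2 ⟨h2, Or.inr rfl⟩⟩
  have h2 : #{e ∈ EdIn P k Q I | e.1 ∈ L ∨ e.2 ∈ L} ≤ ∑ x ∈ L, dg P k Q I x :=
    (card_le_card h1).trans card_biUnion_le
  calc (#{e ∈ EdIn P k Q I | e.1 ∈ L ∨ e.2 ∈ L} : ℝ) ≤ ((∑ x ∈ L, dg P k Q I x : ℕ) : ℝ) := by
        exact_mod_cast h2
    _ = ∑ x ∈ L, (dg P k Q I x : ℝ) := by push_cast; rfl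
    _ ≤ ∑ x ∈ L, d := sum_le_sum hL
    _ = #L * d := by rw [sum_const, nsmul_eq_mul]

/-- the arithmetic of the last step -/
theorem rich_arith {w V r E K : ℝ} (hw : 1 ≤ w) (hr : 1 ≤ r) (hV0 : 0 ≤ V) (hV : V ≤ w)
    (hK : 2 ≤ K) (h1 : E / 2 ≤ 106 * ((w + V) ^ (2 / 3 : ℝ) * (r * w) ^ (1 / 3 : ℝ) + (w + V)))
    (h2 : w ^ (4 / 3 : ℝ) ≤ K * E) : w ≤ 848 ^ 3 * K ^ 3 * r := by
  have hw0 : 0 < w := by linarith
  have hr0 : 0 < r := by linarith
  have e1 : (w + V) ^ (2 / 3 : ℝ) ≤ 2 * w ^ (2 / 3 : ℝ) := by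
    calc (w + V) ^ (2 / 3 : ℝ) ≤ (2 * w) ^ (2 / 3 : ℝ) := by
          apply Real.rpow_le_rpow (by linarith) (by linarith) (by norm_num)
      _ = 2 ^ (2 / 3 : ℝ) * w ^ (2 / 3 : ℝ) := by rw [Real.mul_rpow (by norm_num) hw0.le]
      _ ≤ 2 * w ^ (2 / 3 : ℝ) := by
          have : (2 : ℝ) ^ (2 / 3 : ℝ) ≤ 2 ^ (1 : ℝ) :=
            Real.rpow_le_rpow_of_exponent_le (by norm_num) (by norm_num)
          rw [Real.rpow_one] at this
          exact mul_le_mul_of_nonneg_right this (by positivity)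
  set a := w ^ (1 / 3 : ℝ) with ha
  set b := r ^ (1 / 3 : ℝ) with hb
  have ha0 : 0 < a := Real.rpow_pos_of_pos hw0 _
  have hb1 : 1 ≤ b := Real.one_le_rpow hr (by norm_num)
  have ha3 : a ^ 3 = w := by
    rw [ha, ← Real.rpow_natCast, ← Real.rpow_mul hw0.le]
    norm_num
  have hb3 : b ^ 3 = r := by
    rw [hb, ← Real.rpow_natCast, ← Real.rpow_mul hr0.le]
    norm_num
  have e2 : w ^ (2 / 3 : ℝ) = a ^ 2 := by
    rw [ha, ← Real.rpow_natCast, ← Real.rpow_mul hw0.le]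
    norm_num
  have e3 : w ^ (4 / 3 : ℝ) = a ^ 4 := by
    rw [ha, ← Real.rpow_natCast, ← Real.rpow_mul hw0.le]
    norm_num
  have e4 : (r * w) ^ (1 / 3 : ℝ) = b * a := by
    rw [Real.mul_rpow hr0.le hw0.le]
  rw [e4] at h1
  rw [e2] at e1
  rw [e3] at h2
  have e5 : E ≤ 848 * (a ^ 3 * b) := by
    have : (w + V) ^ (2 / 3 : ℝ) * (b * a) ≤ 2 * a ^ 2 * (b * a) :=
      mul_le_mul_of_nonneg_right e1 (by positivity)
    have h3 : a ^ 3 ≤ a ^ 3 * b := by nlinarith [pow_pos ha0 3]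
    nlinarith
  have e6 : a ^ 4 ≤ 848 * K * b * a ^ 3 := by
    calc a ^ 4 ≤ K * E := h2
      _ ≤ K * (848 * (a ^ 3 * b)) := by gcongr
      _ = 848 * K * b * a ^ 3 := by ring
  have e7 : a ≤ 848 * K * b := by
    have h4 : a * a ^ 3 ≤ 848 * K * b * a ^ 3 := by
      calc a * a ^ 3 = a ^ 4 := by ring
        _ ≤ _ := e6
    exact le_of_mul_le_mul_right h4 (by positivity)
  calc w = a ^ 3 := ha3.symm
    _ ≤ (848 * K * b) ^ 3 := pow_le_pow_left₀ ha0.le e7 3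
    _ = 848 ^ 3 * K ^ 3 * r := by rw [← hb3]; ring

open Classical in
/-- **[VIEW-RICH]** -/
theorem stRich_of (hHeavy : StHeavy) : StRich := by
  obtain ⟨Ch, hCh, heavy⟩ := hHeavy
  refine ⟨12 * Ch + 848 ^ 3, by nlinarith, ?_⟩
  intro P k Q I hP hQ hI K s hK hs hE hw
  set C : ℝ := 12 * Ch + 848 ^ 3 with hC
  have hC1 : (848 : ℝ) ^ 3 ≤ C := by rw [hC]; linarith
  have hC32 : (32 : ℝ) ≤ C := le_trans (by norm_num) hC1
  set T1 := Tch P k Q I with hT1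
  set V := #(EdBd P k Q I) with hV
  set E := #(EdIn P k Q I) with hEdef
  have hV0 : (0 : ℝ) ≤ V := Nat.cast_nonneg _
  have hs32 : 32 ≤ s := by linarith
  have hs0 : 0 < s := by linarith
  -- the two levels
  set S : ℕ := ⌈s⌉₊ with hS
  set t : ℕ := ⌊s / 16⌋₊ with ht
  have hS1 : s ≤ S := Nat.le_ceil s
  have hS2 : (S : ℝ) < s + 1 := Nat.ceil_lt_add_one hs0.le
  have ht1 : (t : ℝ) ≤ s / 16 := Nat.floor_le (by positivity)
  have ht2 : s / 16 < t + 1 := Nat.lt_floor_add_one _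
  have htS : t ≤ S := by
    have : (t : ℝ) ≤ S := by linarith
    exact_mod_cast this
  -- the number of the slow points at level `t`
  have hslow : (#(Slow P k Q I t) : ℝ) ≤ 3 * s / 8 := by
    have h1 : (#(Slow P k Q I t) : ℝ) ≤ ((4 * t + 4 * V + 2 : ℕ) : ℝ) := by
      exact_mod_cast card_slow hP hQ hI t
    push_cast at h1
    linarith
  -- the low points
  set d : ℝ := E / (4 * #T1) with hd
  set L : Finset Pt := {x ∈ T1 | (dg P k Q I x : ℝ) < d} with hL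
  set R : Finset Pt := T1 \ (Slow P k Q I S ∪ L) with hR
  have hRmem : ∀ x, x ∈ R ↔ x ∈ T1 ∧ (x ∉ Slow P k Q I S ∧ x ∉ L) := by
    intro x
    rw [hR, mem_sdiff, mem_union, not_or]
  have hspow : 0 < s ^ (4 / 3 : ℝ) := Real.rpow_pos_of_pos hs0 _
  have hE0 : (0 : ℝ) < E := lt_of_lt_of_le (by positivity) hE
  have hEpos : 0 < E := by exact_mod_cast hE0
  have hT1pos : 0 < #T1 := by
    obtain ⟨e, he⟩ := card_pos.1 (show 0 < #(EdIn P k Q I) from hEpos)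
    exact card_pos.2 ⟨e.1, (edIn_tch e he).1⟩
  have hT1R : (0 : ℝ) < #T1 := by exact_mod_cast hT1pos
  -- edges with an end which is slow at the level `S`
  have hb1 : (#(EdSlow P k Q I S) : ℝ) ≤ E / 4 := by
    have h1 := heavy P k Q I hP hQ hI S
    have h2 : ((S : ℝ) + V + 1) ^ (4 / 3 : ℝ) ≤ 3 * s ^ (4 / 3 : ℝ) := by
      calc ((S : ℝ) + V + 1) ^ (4 / 3 : ℝ) ≤ (2 * s) ^ (4 / 3 : ℝ) := by
            apply Real.rpow_le_rpow (by positivity) (by linarith) (by norm_num)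
        _ = 2 ^ (4 / 3 : ℝ) * s ^ (4 / 3 : ℝ) := by rw [Real.mul_rpow (by norm_num) hs0.le]
        _ ≤ 3 * s ^ (4 / 3 : ℝ) := by
            apply mul_le_mul_of_nonneg_right _ hspow.le
            have h3 : (2 : ℝ) ^ (4 / 3 : ℝ) = ((2 : ℝ) ^ 4) ^ (1 / 3 : ℝ) := by
              rw [← Real.rpow_natCast, ← Real.rpow_mul (by norm_num)]
              norm_num
            have h4 : ((3 : ℝ) ^ 3) ^ (1 / 3 : ℝ) = 3 := by
              rw [← Real.rpow_natCast, ← Real.rpow_mul (by norm_num)]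
              norm_num
            calc (2 : ℝ) ^ (4 / 3 : ℝ) = ((2 : ℝ) ^ 4) ^ (1 / 3 : ℝ) := h3
              _ ≤ ((3 : ℝ) ^ 3) ^ (1 / 3 : ℝ) :=
                Real.rpow_le_rpow (by norm_num) (by norm_num) (by norm_num)
              _ = 3 := h4
    calc (#(EdSlow P k Q I S) : ℝ) ≤ Ch * ((S : ℝ) + V + 1) ^ (4 / 3 : ℝ) := h1
      _ ≤ Ch * (3 * s ^ (4 / 3 : ℝ)) := by gcongr
      _ = (12 * Ch * s ^ (4 / 3 : ℝ)) / 4 := by ring
      _ ≤ (C * s ^ (4 / 3 : ℝ)) / 4 := by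
          have : 12 * Ch ≤ C := by rw [hC]; norm_num
          gcongr
      _ ≤ E / 4 := by linarith
  -- edges with an end of low degree
  have hb2 : (#{e ∈ EdIn P k Q I | e.1 ∈ L ∨ e.2 ∈ L} : ℝ) ≤ E / 4 := by
    have h1 := low_edges P k Q I L d (fun x hx => (mem_filter.1 hx).2.le)
    have h2 : (#L : ℝ) ≤ #T1 := by exact_mod_cast card_le_card (filter_subset _ _)
    have hd0 : 0 ≤ d := by positivity
    calc (#{e ∈ EdIn P k Q I | e.1 ∈ L ∨ e.2 ∈ L} : ℝ) ≤ #L * d := h1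
      _ ≤ #T1 * d := by gcongr
      _ = E / 4 := by rw [hd]; field_simp
  -- the other edges
  have hsub : EdIn P k Q I ⊆ EdY P k Q I R ∪ (EdSlow P k Q I S ∪
      {e ∈ EdIn P k Q I | e.1 ∈ L ∨ e.2 ∈ L}) := by
    intro e he
    by_cases h1 : e.1 ∈ R
    · exact mem_union_left _ (mem_EdY.2 ⟨he, Or.inl h1⟩)
    · refine mem_union_right _ ?_
      have h2 : e.1 ∈ T1 := (edIn_tch e he).1
      rw [hRmem] at h1
      by_cases h3 : e.1 ∈ Slow P k Q I S
      · exact mem_union_left _ (mem_filter.2 ⟨he, Or.inl h3⟩)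
      · refine mem_union_right _ (mem_filter.2 ⟨he, Or.inl ?_⟩)
        by_contra h4
        exact h1 ⟨h2, h3, h4⟩
  have hb3 : (E : ℝ) / 2 ≤ #(EdY P k Q I R) := by
    have h1 : E ≤ #(EdY P k Q I R) + (#(EdSlow P k Q I S) +
        #{e ∈ EdIn P k Q I | e.1 ∈ L ∨ e.2 ∈ L}) :=
      (card_le_card hsub).trans ((card_union_le _ _).trans
        (Nat.add_le_add_left (card_union_le _ _) _))
    have h2 : (E : ℝ) ≤ #(EdY P k Q I R) + (#(EdSlow P k Q I S) +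
        #{e ∈ EdIn P k Q I | e.1 ∈ L ∨ e.2 ∈ L}) := by exact_mod_cast h1
    linarith
  -- the partners of a point of `R`
  have hpart : ∀ x ∈ R, s ≤ #(Par T1 I x) := by
    intro x hx
    obtain ⟨h1, h2, _⟩ := (hRmem x).1 hx
    have h3 : S ≤ #(Par T1 I x) := by
      by_contra h3
      exact h2 (mem_Slow.2 ⟨h1, not_le.1 h3⟩)
    have h4 : (S : ℝ) ≤ #(Par T1 I x) := by exact_mod_cast h3
    linarith
  have hRne : R.Nonempty := by
    by_contra h
    rw [not_nonempty_iff_eq_empty] at h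
    have h1 : EdY P k Q I R = ∅ := by
      apply eq_empty_of_forall_notMem
      intro e he
      rw [h] at he
      simpa using (mem_EdY.1 he).2
    rw [h1] at hb3
    simp only [card_empty, Nat.cast_zero] at hb3
    linarith
  have hws : s ≤ #T1 := by
    obtain ⟨x, hx⟩ := hRne
    refine (hpart x hx).trans ?_
    exact_mod_cast card_le_card Par_subset
  have hR1 : (1 : ℝ) ≤ #R := by exact_mod_cast card_pos.2 hRne
  refine ⟨T1 \ Slow P k Q I t, R, sdiff_subset, ?_, ?_, ?_, ?_, ?_⟩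
  · intro x hx
    obtain ⟨h1, h2, _⟩ := (hRmem x).1 hx
    exact mem_sdiff.2 ⟨h1, fun h => h2 (slow_mono htS h)⟩
  · have h1 := deyY P k Q I hP hQ hI R (by rw [hR]; exact sdiff_subset)
    rw [← hT1] at h1
    push_cast at h1
    have h2 := rich_arith (by linarith) hR1 hV0 (by linarith) hK (hb3.trans h1) hw
    calc (#T1 : ℝ) ≤ 848 ^ 3 * K ^ 3 * #R := h2
      _ ≤ C * K ^ 3 * #R := by gcongr
  · intro p hp
    obtain ⟨h1, h2⟩ := mem_sdiff.1 hp
    have h3 : t ≤ #(Par T1 I p) := by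
      by_contra h3
      exact h2 (mem_Slow.2 ⟨h1, not_le.1 h3⟩)
    have h4 : (t : ℝ) ≤ #(Par T1 I p) := by exact_mod_cast h3
    have h5 : s ≤ 32 * #(Par T1 I p) := by linarith
    exact h5.trans (by gcongr)
  · intro x hx
    have h1 := hpart x hx
    have h2 : Par T1 I x ⊆ {p ∈ T1 \ Slow P k Q I t | sl p x ∈ I} ∪ Slow P k Q I t := by
      intro p hp
      by_cases h3 : p ∈ Slow P k Q I t
      · exact mem_union_right _ h3
      · exact mem_union_left _ (mem_filter.2 ⟨mem_sdiff.2 ⟨Par_subset hp, h3⟩, sl_of_Par hp⟩)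
    have h3 : (#(Par T1 I x) : ℝ) ≤ #{p ∈ T1 \ Slow P k Q I t | sl p x ∈ I} +
        #(Slow P k Q I t) := by
      exact_mod_cast (card_le_card h2).trans (card_union_le _ _)
    have h4 : s ≤ 2 * #{p ∈ T1 \ Slow P k Q I t | sl p x ∈ I} := by linarith
    refine h4.trans ?_
    have : (2 : ℝ) ≤ C := by linarith
    gcongr
  · intro x hx
    obtain ⟨h1, _, h2⟩ := (hRmem x).1 hx
    have h3 : d ≤ dg P k Q I x := by
      by_contra h3
      exact h2 (mem_filter.2 ⟨h1, not_le.1 h3⟩)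
    have h4 : (#T1 : ℝ) ^ (4 / 3 : ℝ) = (#T1 : ℝ) ^ (1 / 3 : ℝ) * #T1 := by
      rw [← Real.rpow_add_one hT1R.ne']
      norm_num
    have h5 : (E : ℝ) ≤ 4 * #T1 * dg P k Q I x := by
      rw [hd, div_le_iff₀ (by positivity)] at h3
      linarith
    have h6 : (#T1 : ℝ) ^ (1 / 3 : ℝ) * #T1 ≤ 4 * K * dg P k Q I x * #T1 := by
      calc (#T1 : ℝ) ^ (1 / 3 : ℝ) * #T1 = (#T1 : ℝ) ^ (4 / 3 : ℝ) := h4.symm
        _ ≤ K * E := hw
        _ ≤ K * (4 * #T1 * dg P k Q I x) := by gcongr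
        _ = 4 * K * dg P k Q I x * #T1 := by ring
    have h7 : (#T1 : ℝ) ^ (1 / 3 : ℝ) ≤ 4 * K * dg P k Q I x := le_of_mul_le_mul_right h6 hT1R
    refine h7.trans ?_
    have : (4 : ℝ) ≤ C := by linarith
    gcongr

/-- **[VIEW-RICH]**, unconditional -/
theorem stRich : StRich := stRich_of (stHeavy_of stDey)

end Vale.Agent.P065.UB.View
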