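import Vale.Agent.P065.UB.View.Defs
import Vale.Agent.P065.UB.H616.Star

/-!
# P065, upper bound: block [VIEW-STAR] (helper882)

`stStar_of : StDey → StRank → StStar`: the inequality (STAR) for arbitrary finite sets `R i` of
points of high degree, from the swap inequality, the window Lovasz lemma and Dey's bound.
-/

set_option autoImplicit false

namespace Vale.Agent.P065.UB.View

open Finset Vale.Agent.P065.UB Vale.Agent.P065.UB.RankAux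

theorem dg_eq (P : Finset Pt) (k : ℕ) (Q : Finset Pt) (I : Set ℝ) (x : Pt) :
    dg P k Q I x = H616.dg P k Q I x := rfl

/-- `E ^ (3 / 2)` from Dey's bound -/
theorem dey_pow {C a b E M : ℝ} (hC : 0 ≤ C) (hE0 : 0 ≤ E) (ha : 0 ≤ a) (hb : 0 ≤ b)
    (hE : E ≤ C * (a * (a + b)) ^ (2 / 3 : ℝ)) (haM : a ≤ M) (hbM : b ≤ M) :
    E ^ (3 / 2 : ℝ) ≤ 2 * C ^ (3 / 2 : ℝ) * M ^ 2 := by
  have hM : 0 ≤ M := ha.trans haM
  have h1 : a * (a + b) ≤ 2 * M ^ 2 := by nlinarith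
  have h2 : E ≤ C * (2 * M ^ 2) ^ (2 / 3 : ℝ) :=
    hE.trans (mul_le_mul_of_nonneg_left
      (Real.rpow_le_rpow (by positivity) h1 (by norm_num)) hC)
  refine (Real.rpow_le_rpow hE0 h2 (by norm_num)).trans (le_of_eq ?_)
  rw [Real.mul_rpow hC (by positivity), ← Real.rpow_mul (by positivity)]
  norm_num
  ring

/-- the arithmetic of one window -/
theorem arith_star {C c K s w r y E V Sz : ℝ} (hC : 1 ≤ C) (hc : 0 ≤ c) (hK : 2 ≤ K)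
    (hs : 1 ≤ s) (hw : 0 < w) (hy : 0 < y) (hy3 : y ^ 3 = w) (hr : 0 ≤ r)
    (hS : 0 ≤ Sz) (hVZ : V ≤ 2 * K * s * w) (hdeg : r * y ≤ K * (2 * E + V))
    (hE3 : E ^ 3 ≤ C * Sz * ((2 * c + 4) * (K ^ 2 * s ^ 2 * w ^ 2))) :
    r ^ 3 ≤ 64 * C * (2 * c + 4) * K ^ 6 * s ^ 3 * (w * Sz + w ^ 2) := by
  have hK0 : 0 < K := by linarith
  have hs0 : 0 < s := by linarith
  have hfin : ∀ X : ℝ, r ^ 3 * w ≤ X * w → r ^ 3 ≤ X := fun X h =>
    le_of_mul_le_mul_right h hw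
  have hry : (r * y) ^ 3 = r ^ 3 * w := by rw [mul_pow, hy3]
  have hry0 : 0 ≤ r * y := mul_nonneg hr hy.le
  have hc4 : 1 ≤ 2 * c + 4 := by linarith
  have hCc : 1 ≤ C * (2 * c + 4) := one_le_mul_of_one_le_of_one_le hC hc4
  by_cases hcase : r * y ≤ 2 * K * V
  · -- many boundary edges
    have h1 : r * y ≤ 4 * K ^ 2 * s * w := by
      refine hcase.trans ?_
      calc 2 * K * V ≤ 2 * K * (2 * K * s * w) := mul_le_mul_of_nonneg_left hVZ (by positivity)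
        _ = _ := by ring
    have h2 : r ^ 3 * w ≤ (64 * K ^ 6 * s ^ 3 * w ^ 2) * w := by
      rw [← hry]
      refine (pow_le_pow_left₀ hry0 h1 3).trans (le_of_eq (by ring))
    have h3 := hfin _ h2
    refine h3.trans ?_
    have h5 : w ^ 2 ≤ w * Sz + w ^ 2 := le_add_of_nonneg_left (mul_nonneg hw.le hS)
    calc 64 * K ^ 6 * s ^ 3 * w ^ 2 = 1 * (64 * K ^ 6 * s ^ 3 * w ^ 2) := by ring
      _ ≤ (C * (2 * c + 4)) * (64 * K ^ 6 * s ^ 3 * w ^ 2) :=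
          mul_le_mul_of_nonneg_right hCc (by positivity)
      _ = (64 * C * (2 * c + 4) * K ^ 6 * s ^ 3) * w ^ 2 := by ring
      _ ≤ (64 * C * (2 * c + 4) * K ^ 6 * s ^ 3) * (w * Sz + w ^ 2) :=
          mul_le_mul_of_nonneg_left h5 (by positivity)
  · -- few boundary edges
    have hcase' := not_le.1 hcase
    have h1 : r * y ≤ 4 * K * E := by linarith
    have h2 : r ^ 3 * w ≤ (64 * C * (2 * c + 4) * K ^ 5 * s ^ 2 * (w * Sz)) * w := by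
      rw [← hry]
      calc (r * y) ^ 3 ≤ (4 * K * E) ^ 3 := pow_le_pow_left₀ hry0 h1 3
        _ = 64 * K ^ 3 * E ^ 3 := by ring
        _ ≤ 64 * K ^ 3 * (C * Sz * ((2 * c + 4) * (K ^ 2 * s ^ 2 * w ^ 2))) :=
            mul_le_mul_of_nonneg_left hE3 (by positivity)
        _ = _ := by ring
    have h3 := hfin _ h2
    refine h3.trans ?_
    have h4 : K ^ 5 * s ^ 2 ≤ K ^ 6 * s ^ 3 := by
      have e1 : K ^ 5 ≤ K ^ 6 := pow_le_pow_right₀ (by linarith) (by norm_num)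
      have e2 : s ^ 2 ≤ s ^ 3 := pow_le_pow_right₀ hs (by norm_num)
      exact mul_le_mul e1 e2 (by positivity) (by positivity)
    have h5 : w * Sz ≤ w * Sz + w ^ 2 := le_add_of_nonneg_right (by positivity)
    calc 64 * C * (2 * c + 4) * K ^ 5 * s ^ 2 * (w * Sz)
        = 64 * C * (2 * c + 4) * (w * Sz) * (K ^ 5 * s ^ 2) := by ring
      _ ≤ 64 * C * (2 * c + 4) * (w * Sz) * (K ^ 6 * s ^ 3) :=
          mul_le_mul_of_nonneg_left h4 (by positivity)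
      _ = (64 * C * (2 * c + 4) * K ^ 6 * s ^ 3) * (w * Sz) := by ring
      _ ≤ (64 * C * (2 * c + 4) * K ^ 6 * s ^ 3) * (w * Sz + w ^ 2) :=
          mul_le_mul_of_nonneg_left h5 (by positivity)

/-- the bracket of the swap inequality -/
theorem arith_br {c K s w V X : ℝ} (hc : 0 ≤ c) (hs : 1 ≤ s)
    (hV0 : 0 ≤ V) (hVZ : V ≤ 2 * K * s * w) (hX : X ≤ 2 * c * (K * w) ^ 2) :
    X + V ^ 2 ≤ (2 * c + 4) * (K ^ 2 * s ^ 2 * w ^ 2) := by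
  have h1 : V ^ 2 ≤ (2 * K * s * w) ^ 2 := pow_le_pow_left₀ hV0 hVZ 2
  have h2 : (K * w) ^ 2 ≤ K ^ 2 * s ^ 2 * w ^ 2 := by
    have h3 : 1 ≤ s ^ 2 := one_le_pow₀ hs
    calc (K * w) ^ 2 = (K * w) ^ 2 * 1 := by ring
      _ ≤ (K * w) ^ 2 * s ^ 2 := mul_le_mul_of_nonneg_left h3 (by positivity)
      _ = _ := by ring
  have h5 : 2 * c * (K * w) ^ 2 ≤ 2 * c * (K ^ 2 * s ^ 2 * w ^ 2) :=
    mul_le_mul_of_nonneg_left h2 (by linarith)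
  calc X + V ^ 2 ≤ 2 * c * (K ^ 2 * s ^ 2 * w ^ 2) + (2 * K * s * w) ^ 2 := by
        linarith
    _ = _ := by ring

/-- one window -/
theorem star_one (hDey : StDey) (hRank : StRank) : ∃ C : ℝ, 1 ≤ C ∧ ∀ (P : Finset Pt) (k : ℕ)
    (Q : Finset Pt) (I : Set ℝ) (R : Finset Pt) (K w : ℝ), Good P → Q ⊆ P → 2 ≤ K → 1 ≤ w →
    I.OrdConnected → (#(Tch P k Q I) : ℝ) ≤ K * w → (#(EdBd P k Q I) : ℝ) ≤ K * w →
    (∀ x ∈ R, w ^ (1 / 3 : ℝ) ≤ K * dg P k Q I x) →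
    ∀ (S : Finset ℕ) (H : ℕ → Set Pt), (∀ i ∈ S, IsHalf (H i)) → ∀ Z : Finset Pt,
      (∀ z, z ∈ Z ↔ z ∈ Q ∧ ∀ i ∈ S, z ∈ H i) →
      (#(R ∩ Z) : ℝ) ^ 3 ≤ C * K ^ 6 * (#S + 1 : ℝ) ^ 3 * (w * #(Sw Z I) + w ^ 2) := by
  obtain ⟨C₁, hC₁, hs⟩ := H616.sineq hDey hRank
  obtain ⟨C₀, hC₀, hdey⟩ := hDey
  have hC₀' : 0 ≤ C₀ ^ (3 / 2 : ℝ) := by positivity
  refine ⟨64 * C₁ * (2 * C₀ ^ (3 / 2 : ℝ) + 4), ?_, ?_⟩
  · have h1 : 1 ≤ C₁ * (2 * C₀ ^ (3 / 2 : ℝ) + 4) :=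
      one_le_mul_of_one_le_of_one_le hC₁ (by linarith)
    linarith
  intro P k Q I R K w hP hQ hK hw hI hT hV hR S H hH Z hZ
  have hK0 : 0 < K := by linarith
  have hw0 : 0 < w := by linarith
  have hZQ : Z ⊆ Q := fun v hv => ((hZ v).1 hv).1
  have hs1 : 1 ≤ (#S : ℝ) + 1 := by
    have : (0 : ℝ) ≤ #S := Nat.cast_nonneg _
    linarith
  -- boundary edges of `Z`
  have hVZ : (#(EdBd P k Z I) : ℝ) ≤ 2 * K * ((#S : ℝ) + 1) * w := by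
    have h1 : (#(EdBd P k Z I) : ℝ) ≤
        #(EdBd P k Q I) + #S * (#(Tch P k Q I) + #(EdBd P k Q I)) := by
      exact_mod_cast box hP hI S H hH hZ
    have h2 : (#S : ℝ) * (#(Tch P k Q I) + #(EdBd P k Q I)) ≤ #S * (2 * (K * w)) :=
      mul_le_mul_of_nonneg_left (by linarith) (Nat.cast_nonneg _)
    have h3 : 0 ≤ K * w := by positivity
    calc (#(EdBd P k Z I) : ℝ) ≤ K * w + #S * (2 * (K * w)) + K * w := by linarith
      _ = 2 * K * ((#S : ℝ) + 1) * w := by ring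
  -- degrees
  have hy0 : 0 < w ^ (1 / 3 : ℝ) := by positivity
  have hy3 : (w ^ (1 / 3 : ℝ)) ^ 3 = w := by
    rw [← Real.rpow_natCast, ← Real.rpow_mul hw0.le]
    norm_num
  have hdeg : (#(R ∩ Z) : ℝ) * w ^ (1 / 3 : ℝ) ≤
      K * (2 * #(EdIn P k Z I) + #(EdBd P k Z I)) := by
    have h1 : ∑ x ∈ R ∩ Z, (dg P k Q I x : ℝ) ≤ 2 * #(EdIn P k Z I) + #(EdBd P k Z I) := by
      exact_mod_cast H616.sum_dg_le (P := P) (k := k) (I := I) hZQ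
        (Finset.inter_subset_right : R ∩ Z ⊆ Z)
    calc (#(R ∩ Z) : ℝ) * w ^ (1 / 3 : ℝ) = ∑ _x ∈ R ∩ Z, w ^ (1 / 3 : ℝ) := by
          rw [sum_const, nsmul_eq_mul]
      _ ≤ ∑ x ∈ R ∩ Z, K * (dg P k Q I x : ℝ) :=
          sum_le_sum fun x hx => hR x (mem_of_mem_inter_left hx)
      _ = K * ∑ x ∈ R ∩ Z, (dg P k Q I x : ℝ) := by rw [mul_sum]
      _ ≤ _ := mul_le_mul_of_nonneg_left h1 hK0.le
  -- the swap inequality in `Z`
  have hE32 : (#(EdIn P k Z I) : ℝ) ^ (3 / 2 : ℝ) ≤ 2 * C₀ ^ (3 / 2 : ℝ) * (K * w) ^ 2 := by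
    have hEQ : (#(EdIn P k Z I) : ℝ) ≤ #(EdIn P k Q I) := by
      have : EdIn P k Z I ⊆ EdIn P k Q I := by
        rintro ⟨p, q⟩ he
        rw [mem_EdIn] at he ⊢
        exact ⟨he.1, hZQ he.2.1, hZQ he.2.2.1, he.2.2.2⟩
      exact_mod_cast card_le_card this
    exact dey_pow hC₀.le (Nat.cast_nonneg _) (Nat.cast_nonneg _) (Nat.cast_nonneg _)
      (hEQ.trans (hdey P k Q I hP hQ hI)) hT hV
  have hE3 := (hs P k Z I hP (hZQ.trans hQ) hI).trans (mul_le_mul_of_nonneg_left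
    (arith_br hC₀' hs1 (Nat.cast_nonneg _) hVZ hE32) (by positivity))
  exact arith_star hC₁ hC₀' hK hs1 hw0 hy0 hy3 (Nat.cast_nonneg _) (Nat.cast_nonneg _) hVZ hdeg hE3

/-- **(STAR)** -/
theorem stStar_of (hDey : StDey) (hRank : StRank) : StStar := by
  obtain ⟨C, hC, h⟩ := star_one hDey hRank
  refine ⟨C, hC, ?_⟩
  intro P k Q W I R K w hP hQ hK hw hI hd hT hV hR S H hH Z hZ
  have hpos : 0 ≤ C * K ^ 6 * (#S + 1 : ℝ) ^ 3 := by positivity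
  calc ∑ i ∈ W, (#(R i ∩ Z) : ℝ) ^ 3
      ≤ ∑ i ∈ W, C * K ^ 6 * (#S + 1 : ℝ) ^ 3 * (w * #(Sw Z (I i)) + w ^ 2) :=
        sum_le_sum fun i hi => h P k Q (I i) (R i) K w hP hQ hK hw (hI i hi) (hT i hi) (hV i hi)
          (hR i hi) S H hH Z hZ
    _ = C * K ^ 6 * (#S + 1 : ℝ) ^ 3 *
          (w * ((∑ i ∈ W, #(Sw Z (I i)) : ℕ) : ℝ) + #W * w ^ 2) := by
        rw [← mul_sum, sum_add_distrib, ← mul_sum, sum_const, nsmul_eq_mul]
        push_cast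
        rfl
    _ ≤ C * K ^ 6 * (#S + 1 : ℝ) ^ 3 * (w * (#Z : ℝ) ^ 2 + #W * w ^ 2) := by
        refine mul_le_mul_of_nonneg_left ?_ hpos
        have h1 : ((∑ i ∈ W, #(Sw Z (I i)) : ℕ) : ℝ) ≤ (#Z : ℝ) ^ 2 := by
          exact_mod_cast H616.sum_Sw_le W I hd Z
        have h2 := mul_le_mul_of_nonneg_left h1 (by linarith : (0 : ℝ) ≤ w)
        linarith

end Vale.Agent.P065.UB.View
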