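import Vale.Agent.P065.UB.View.Out
import Vale.Agent.P065.UB.View.Rich
import Vale.Agent.P065.UB.View.Star
import Vale.Agent.P065.H537.JoinV

/-!
# P065, upper bound: the output of the middle part (helper752; 374, 537, 882, 266)
-/

set_option autoImplicit false

namespace Vale.Agent.P065.UB.View

open Finset Vale.Agent.P065.UB

theorem stJoin : StJoin := by
  obtain ⟨C, hC, h⟩ := Vale.Agent.P065.H537.joinV
  exact ⟨C, hC, fun P k Q I hP hQ hI M hM F hF hMF => h P k Q I hP hQ hI M hM F hF hMF⟩

theorem stViewOut_of_star (hS : StStar) : StViewOut :=
  stViewOut_of (stView_of hS stRich) stJoin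

/-- **STAR** is a theorem (882) -/
theorem stStar : StStar := stStar_of stDey stRank

/-- **the output of the front end and of the middle part is a theorem** -/
theorem stViewOut : StViewOut := stViewOut_of_star stStar

end Vale.Agent.P065.UB.View
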