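import Vale.Agent.P065.H183.Defs

/-!
# P065, upper bound: block [VIEW], literal Props (helper752)

`StStar`: (STAR) for rich points; `StRich`: choice of the vantage points and of the rich points of
one window; `StView`: from `Plane` to `View`.
-/

set_option autoImplicit false

namespace Vale.Agent.P065.UB.View

open Finset Vale.Agent.P065.UB Vale.Agent.P065.UB.RankAux Vale.Agent.P065.H183

open Classical in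
/-- the number of `k`-edges inside `Q` with slope in `I` which have the end `x` -/
noncomputable def dg (P : Finset Pt) (k : ℕ) (Q : Finset Pt) (I : Set ℝ) (x : Pt) : ℕ :=
  #{e ∈ EdIn P k Q I | e.1 = x ∨ e.2 = x}

open Classical in
/-- **(STAR)** for an arbitrary finite set `R i` of points of high degree -/
def StStar : Prop :=
  ∃ C : ℝ, 1 ≤ C ∧ ∀ (P : Finset Pt) (k : ℕ) (Q : Finset Pt) (W : Finset ℕ) (I : ℕ → Set ℝ)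
    (R : ℕ → Finset Pt) (K w : ℝ), Good P → Q ⊆ P → 2 ≤ K → 1 ≤ w →
    (∀ i ∈ W, (I i).OrdConnected) → (∀ i ∈ W, ∀ j ∈ W, i ≠ j → Disjoint (I i) (I j)) →
    (∀ i ∈ W, (#(Tch P k Q (I i)) : ℝ) ≤ K * w) →
    (∀ i ∈ W, (#(EdBd P k Q (I i)) : ℝ) ≤ K * w) →
    (∀ i ∈ W, ∀ x ∈ R i, w ^ (1 / 3 : ℝ) ≤ K * dg P k Q (I i) x) →
    ∀ (S : Finset ℕ) (H : ℕ → Set Pt), (∀ i ∈ S, IsHalf (H i)) → ∀ Z : Finset Pt,
      (∀ z, z ∈ Z ↔ z ∈ Q ∧ ∀ i ∈ S, z ∈ H i) →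
      ∑ i ∈ W, (#(R i ∩ Z) : ℝ) ^ 3 ≤
        C * K ^ 6 * (#S + 1 : ℝ) ^ 3 * (w * (#Z : ℝ) ^ 2 + #W * w ^ 2)

open Classical in
/-- **RICH**: the vantage points `T` and the rich points `R` of one window -/
def StRich : Prop :=
  ∃ C : ℝ, 1 ≤ C ∧ ∀ (P : Finset Pt) (k : ℕ) (Q : Finset Pt) (I : Set ℝ), Good P → Q ⊆ P →
    I.OrdConnected → ∀ K s : ℝ, 2 ≤ K → 32 * ((#(EdBd P k Q I) : ℝ) + 1) ≤ s →
    C * s ^ (4 / 3 : ℝ) ≤ #(EdIn P k Q I) →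
    (#(Tch P k Q I) : ℝ) ^ (4 / 3 : ℝ) ≤ K * #(EdIn P k Q I) →
    ∃ T R : Finset Pt, T ⊆ Tch P k Q I ∧ R ⊆ T ∧
      (#(Tch P k Q I) : ℝ) ≤ C * K ^ 3 * #R ∧
      (∀ p ∈ T, s ≤ C * #(Par (Tch P k Q I) I p)) ∧
      (∀ x ∈ R, s ≤ C * #{p ∈ T | sl p x ∈ I}) ∧
      (∀ x ∈ R, (#(Tch P k Q I) : ℝ) ^ (1 / 3 : ℝ) ≤ C * K * dg P k Q I x)

/-- **VIEW**: the structure `View` from `Plane` and 102's field `s` -/
def StView : Prop :=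
  ∃ (C : ℕ) (C0 : ℝ), 1 ≤ C0 ∧ ∀ (lam K : ℝ) (P : Finset Pt) (k : ℕ) (Q : Finset Pt) (W : Finset ℕ)
    (I : ℕ → Set ℝ) (T : ℕ → Finset Pt), Good P → Plane lam K P k Q W I T → 2 ≤ K → C0 ≤ K →
    1 ≤ lam → ∀ s : ℝ, (#Q : ℝ) ≤ K * lam * s → (∀ w ∈ W, 32 * ((#(EdBd P k Q (I w)) : ℝ) + 1) ≤ s) →
    (∀ w ∈ W, C0 * s ^ (4 / 3 : ℝ) ≤ #(EdIn P k Q (I w))) →
    ∃ (W' : Finset ℕ) (T' R' : ℕ → Finset Pt), W' ⊆ W ∧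
      (∀ w ∈ W', T' w ⊆ T w) ∧
      (∀ w ∈ W', ∀ x ∈ R' w, (#(T w) : ℝ) ^ (1 / 3 : ℝ) ≤ K ^ C * dg P k Q (I w) x) ∧
      View (K ^ C) lam Q W' I T' R'

open Classical in
/-- **JOIN**, vertex cover form (537, 334): many edges with an end in `M` force many swapped pairs
of `M`. -/
def StJoin : Prop :=
  ∃ C : ℝ, 1 ≤ C ∧ ∀ (P : Finset Pt) (k : ℕ) (Q : Finset Pt) (I : Set ℝ), Good P → Q ⊆ P →
    I.OrdConnected → ∀ M : Finset Pt, M ⊆ Tch P k Q I → ∀ F : Finset (Pt × Pt), F ⊆ EdIn P k Q I →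
    (∀ e ∈ F, e.1 ∈ M ∨ e.2 ∈ M) →
    (#F : ℝ) ^ 6 ≤ C * ((#(Tch P k Q I) : ℝ) + #(EdBd P k Q I)) ^ 6 * (#(Sw M I) + 1)

/-- `View` with the join property of the rich points -/
structure ViewJ (K lam : ℝ) (Q : Finset Pt) (W : Finset ℕ) (I : ℕ → Set ℝ)
    (T R : ℕ → Finset Pt) : Prop extends View K lam Q W I T R where
  /-- every set of rich points of a window has many pairs with slope in the window -/
  joinR : ∀ w ∈ W, ∀ M : Finset Pt, M ⊆ R w →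
    lam ^ 4 * (#M : ℝ) ^ 6 ≤ K * (#Q : ℝ) ^ 4 * (#(Sw M (I w)) + 1)

/-- **output of the middle part** -/
def StViewOut : Prop :=
  ∃ C : ℝ, 0 < C ∧ ∀ ε : ℝ, 0 < ε → ε < 1 / C → ∃ n₀ : ℕ, ∀ (P : Finset Pt) (k : ℕ), Good P →
    n₀ ≤ #P → (#P : ℝ) ^ (4 / 3 - ε) ≤ #(Ed P k) →
    ∀ lam : ℝ, (#P : ℝ) ^ (C * ε) ≤ lam → lam ≤ (#P : ℝ) ^ (1 / 4 - C * ε) →
    ∃ (Q : Finset Pt) (W : Finset ℕ) (I : ℕ → Set ℝ) (T R : ℕ → Finset Pt), Q ⊆ P ∧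
      (#P : ℝ) ≤ (#P : ℝ) ^ (C * ε) * lam ^ 2 * #Q ∧
      ViewJ ((#P : ℝ) ^ (C * ε)) lam Q W I T R

end Vale.Agent.P065.UB.View
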