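import Vale.Agent.P065.UB.View.Defs
import Vale.Agent.P065.UB.Heavy

/-!
# P065, upper bound: from `Plane` to `View` (helper752)
-/

set_option autoImplicit false

namespace Vale.Agent.P065.UB.View

open Finset Vale.Agent.P065.UB Vale.Agent.P065.UB.RankAux Vale.Agent.P065.H183

theorem sl_symm (p q : Pt) : sl p q = sl q p := by
  unfold sl
  rw [← neg_sub p.2 q.2, ← neg_sub p.1 q.1, neg_div_neg_eq]

theorem sl_of_mem_Par {T : Finset Pt} {I : Set ℝ} {u v : Pt} (h : u ∈ Par T I v) : sl u v ∈ I := by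
  rcases (mem_Par.1 h).2.2 with h | h
  · exact h.2
  · rw [sl_symm]; exact h.2

/-- pairwise disjoint subsets -/
theorem sum_card_le {ι α : Type*} [DecidableEq α] (W : Finset ι) (F : ι → Finset α) (A : Finset α)
    (h1 : ∀ w ∈ W, F w ⊆ A) (h2 : ∀ w ∈ W, ∀ w' ∈ W, w ≠ w' → Disjoint (F w) (F w')) :
    ∑ w ∈ W, #(F w) ≤ #A := by
  rw [← Finset.card_biUnion h2]
  apply Finset.card_le_card
  intro x hx
  obtain ⟨w, hw, hxw⟩ := Finset.mem_biUnion.1 hx
  exact h1 w hw hxw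

theorem star_arith (K lam C1 q z n w1 kk Sg : ℝ) (hK1 : 1 ≤ K) (hlam0 : 0 < lam) (hC1 : 1 ≤ C1)
    (hC1K : C1 ≤ K) (hq : 0 ≤ q) (hz : 0 ≤ z) (hn : 0 ≤ n) (hkk : 0 ≤ kk) (hw1' : lam * w1 = K * q)
    (hcW : n ≤ K * lam ^ 2)
    (h : Sg ≤ C1 * (K ^ 3) ^ 6 * kk ^ 3 * (w1 * z ^ 2 + n * w1 ^ 2)) :
    lam * Sg ≤ K ^ 22 * kk ^ 3 * (q * z ^ 2 + lam * q ^ 2) := by
  have hK0 : 0 < K := by linarith
  have h8 : lam * n * w1 ^ 2 ≤ K ^ 3 * (lam * q ^ 2) := by
    calc lam * n * w1 ^ 2 ≤ lam * (K * lam ^ 2) * w1 ^ 2 := by gcongr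
      _ = K * lam * (lam * w1) ^ 2 := by ring
      _ = K ^ 3 * (lam * q ^ 2) := by rw [hw1']; ring
  have h9 : (K * q) * z ^ 2 ≤ K ^ 3 * (q * z ^ 2) := by
    calc (K * q) * z ^ 2 = K ^ 1 * (q * z ^ 2) := by ring
      _ ≤ K ^ 3 * (q * z ^ 2) :=
        mul_le_mul_of_nonneg_right (pow_le_pow_right₀ hK1 (by norm_num)) (by positivity)
  have h10 : (lam * w1) * z ^ 2 + lam * n * w1 ^ 2 ≤ K ^ 3 * (q * z ^ 2 + lam * q ^ 2) := by
    rw [hw1', mul_add]; linarith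
  calc lam * Sg ≤ lam * (C1 * (K ^ 3) ^ 6 * kk ^ 3 * (w1 * z ^ 2 + n * w1 ^ 2)) :=
        mul_le_mul_of_nonneg_left h hlam0.le
    _ = C1 * (K ^ 18 * kk ^ 3) * ((lam * w1) * z ^ 2 + lam * n * w1 ^ 2) := by ring
    _ ≤ C1 * (K ^ 18 * kk ^ 3) * (K ^ 3 * (q * z ^ 2 + lam * q ^ 2)) :=
        mul_le_mul_of_nonneg_left h10 (by positivity)
    _ ≤ K * (K ^ 18 * kk ^ 3) * (K ^ 3 * (q * z ^ 2 + lam * q ^ 2)) := by
        apply mul_le_mul_of_nonneg_right _ (by positivity)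
        exact mul_le_mul_of_nonneg_right hC1K (by positivity)
    _ = K ^ 22 * kk ^ 3 * (q * z ^ 2 + lam * q ^ 2) := by ring

/-- the third root of the size of a window -/
theorem root_arith (K C2 w1 t d : ℝ) (hK1 : 1 ≤ K) (hC2K : C2 ≤ K) (hw10 : 0 < w1) (ht : 0 ≤ t)
    (hd : 0 ≤ d) (h3 : w1 ≤ K ^ 2 * t) (h1 : t ^ (1 / 3 : ℝ) ≤ C2 * K * d) :
    w1 ^ (1 / 3 : ℝ) ≤ K ^ 3 * d := by
  have hK0 : 0 < K := by linarith
  have h5 : (K ^ 2 : ℝ) ^ (1 / 3 : ℝ) ≤ K := by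
    have h6 : (K ^ 2 : ℝ) ≤ K ^ 3 := pow_le_pow_right₀ hK1 (by norm_num)
    calc (K ^ 2 : ℝ) ^ (1 / 3 : ℝ) ≤ (K ^ 3) ^ (1 / 3 : ℝ) :=
          Real.rpow_le_rpow (by positivity) h6 (by norm_num)
      _ = K := by
          rw [← Real.rpow_natCast, ← Real.rpow_mul hK0.le]
          norm_num
  have h2 : C2 * K * d ≤ K * K * d := by
    apply mul_le_mul_of_nonneg_right _ hd
    exact mul_le_mul_of_nonneg_right hC2K hK0.le
  calc w1 ^ (1 / 3 : ℝ) ≤ (K ^ 2 * t) ^ (1 / 3 : ℝ) := Real.rpow_le_rpow hw10.le h3 (by norm_num)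
    _ = (K ^ 2 : ℝ) ^ (1 / 3 : ℝ) * t ^ (1 / 3 : ℝ) := Real.mul_rpow (by positivity) ht
    _ ≤ K * (K * K * d) := by
        apply mul_le_mul h5 (h1.trans h2) (Real.rpow_nonneg ht _) hK0.le
    _ = K ^ 3 * d := by ring

open Classical in
theorem stView_of (hS : StStar) (hR : StRich) : StView := by
  obtain ⟨C1, hC1, star⟩ := hS
  obtain ⟨C2, hC2, rich⟩ := hR
  refine ⟨22, max C1 C2, le_max_of_le_left hC1, ?_⟩
  intro lam K P k Q W I T hP hPl hK hCK hlam s hQs hbd hs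
  have hC1K : C1 ≤ K := (le_max_left _ _).trans hCK
  have hC2K : C2 ≤ K := (le_max_right _ _).trans hCK
  have hK0 : 0 < K := by linarith
  have hK1 : 1 ≤ K := by linarith
  have hlam0 : 0 < lam := by linarith
  -- the windows
  have hW0 : W.Nonempty := by
    rw [← Finset.card_pos]
    have h1 := hPl.cardW'
    have h2 : 1 ≤ lam ^ 2 := one_le_pow₀ hlam
    by_contra h3
    have h4 : #W = 0 := by omega
    rw [h4] at h1
    simp only [Nat.cast_zero, mul_zero] at h1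
    linarith
  obtain ⟨w0, hw0⟩ := hW0
  have hT8 : ∀ w ∈ W, (8 : ℝ) ≤ #(T w) := by
    intro w hw
    have h1 := hPl.bd w hw
    have h2 : 8 ≤ #(T w) := by omega
    exact_mod_cast h2
  have hQ0 : 0 < (#Q : ℝ) := by
    have h1 := hT8 w0 hw0
    have h2 : (#(T w0) : ℝ) ≤ #Q := by exact_mod_cast Finset.card_le_card (hPl.subT w0 hw0)
    linarith
  have hs0 : 0 < s := by
    have h1 := hbd w0 hw0
    have h2 : (0 : ℝ) ≤ #(EdBd P k Q (I w0)) := Nat.cast_nonneg _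
    linarith
  -- the choice
  have hch : ∀ w, ∃ T' R' : Finset Pt, w ∈ W →
      T' ⊆ Tch P k Q (I w) ∧ R' ⊆ T' ∧
      (#(Tch P k Q (I w)) : ℝ) ≤ C2 * K ^ 3 * #R' ∧
      (∀ p ∈ T', s ≤ C2 * #(Par (Tch P k Q (I w)) (I w) p)) ∧
      (∀ x ∈ R', s ≤ C2 * #{p ∈ T' | sl p x ∈ I w}) ∧
      (∀ x ∈ R', (#(Tch P k Q (I w)) : ℝ) ^ (1 / 3 : ℝ) ≤ C2 * K * dg P k Q (I w) x) := by
    intro w
    by_cases hw : w ∈ W
    · have he := hPl.edges w hw
      rw [hPl.tch w hw] at he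
      obtain ⟨T', R', h⟩ := rich P k Q (I w) hP hPl.sub (hPl.conn w hw) K s hK (hbd w hw)
        (le_trans (mul_le_mul_of_nonneg_right (le_max_right _ _) (by positivity)) (hs w hw)) he
      exact ⟨T', R', fun _ => h⟩
    · exact ⟨∅, ∅, fun h => absurd h hw⟩
  choose T' R' hTR using hch
  -- few windows with many pairs
  set pr : ℕ → Finset (Pt × Pt) := fun w => {e ∈ Q ×ˢ T' w | sl e.2 e.1 ∈ I w} with hpr
  have hsubT : ∀ w ∈ W, T' w ⊆ Q := fun w hw => (hTR w hw).1.trans (Tch_subset P k Q (I w))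
  have hprsum : ∑ w ∈ W, #(pr w) ≤ #Q ^ 2 := by
    have := sum_card_le W pr (Q ×ˢ Q) (by
      intro w hw e he
      have h1 := Finset.mem_product.1 (Finset.mem_filter.1 he).1
      exact Finset.mem_product.2 ⟨h1.1, hsubT w hw h1.2⟩) (by
      intro w hw w' hw' hne
      rw [Finset.disjoint_left]
      intro e he he'
      exact Set.disjoint_left.1 (hPl.disj w hw w' hw' hne) (Finset.mem_filter.1 he).2
        (Finset.mem_filter.1 he').2)
    rw [Finset.card_product] at this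
    rw [sq]; exact this
  set W' : Finset ℕ := {w ∈ W | lam ^ 2 * (#(pr w) : ℝ) ≤ 2 * K * (#Q : ℝ) ^ 2} with hW'
  have hWsub : W' ⊆ W := Finset.filter_subset _ _
  have hWcard : (#W : ℝ) ≤ 2 * #W' := by
    set B : Finset ℕ := {w ∈ W | ¬ lam ^ 2 * (#(pr w) : ℝ) ≤ 2 * K * (#Q : ℝ) ^ 2} with hB
    have h1 : #W' + #B = #W := Finset.card_filter_add_card_filter_not _
    have h2 : (#B : ℝ) * (2 * K * (#Q : ℝ) ^ 2) ≤ lam ^ 2 * (#Q : ℝ) ^ 2 := by
      calc (#B : ℝ) * (2 * K * (#Q : ℝ) ^ 2) = ∑ w ∈ B, (2 * K * (#Q : ℝ) ^ 2) := by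
            rw [Finset.sum_const, nsmul_eq_mul]
        _ ≤ ∑ w ∈ B, lam ^ 2 * (#(pr w) : ℝ) := by
            apply Finset.sum_le_sum
            intro w hw
            exact (not_le.1 (Finset.mem_filter.1 hw).2).le
        _ ≤ ∑ w ∈ W, lam ^ 2 * (#(pr w) : ℝ) :=
            Finset.sum_le_sum_of_subset_of_nonneg (Finset.filter_subset _ _)
              (fun _ _ _ => by positivity)
        _ = lam ^ 2 * ((∑ w ∈ W, #(pr w) : ℕ) : ℝ) := by
            rw [← Finset.mul_sum]; push_cast; rfl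
        _ ≤ lam ^ 2 * ((#Q ^ 2 : ℕ) : ℝ) := by
            apply mul_le_mul_of_nonneg_left _ (by positivity)
            exact_mod_cast hprsum
        _ = lam ^ 2 * (#Q : ℝ) ^ 2 := by push_cast; rfl
    have h3 : (#B : ℝ) * (2 * K) ≤ lam ^ 2 := by
      have h4 : (#B : ℝ) * (2 * K) * (#Q : ℝ) ^ 2 ≤ lam ^ 2 * (#Q : ℝ) ^ 2 := by
        calc (#B : ℝ) * (2 * K) * (#Q : ℝ) ^ 2 = (#B : ℝ) * (2 * K * (#Q : ℝ) ^ 2) := by ring
          _ ≤ _ := h2
      exact le_of_mul_le_mul_right h4 (by positivity)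
    have h4 := hPl.cardW'
    have h5 : (#B : ℝ) * (2 * K) ≤ K * #W := h3.trans h4
    have h6 : (#B : ℝ) * 2 ≤ #W := by
      have : K * ((#B : ℝ) * 2) ≤ K * #W := by linarith
      exact le_of_mul_le_mul_left this hK0
    have h7 : (#W' : ℝ) + #B = #W := by exact_mod_cast h1
    linarith
  have hpow : ∀ (a : ℝ) (n : ℕ), 0 ≤ a → n ≤ 22 → K ^ n * a ≤ K ^ 22 * a := fun a n ha hn =>
    mul_le_mul_of_nonneg_right (pow_le_pow_right₀ hK1 hn) ha
  refine ⟨W', T', R', hWsub, ?_, ?_, ?_⟩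
  · intro w hw
    rw [hPl.tch w (hWsub hw)]
    exact (hTR w (hWsub hw)).1
  · intro w hw x hx
    rw [hPl.tch w (hWsub hw)]
    calc (#(Tch P k Q (I w)) : ℝ) ^ (1 / 3 : ℝ) ≤ C2 * K * dg P k Q (I w) x :=
          (hTR w (hWsub hw)).2.2.2.2.2 x hx
      _ ≤ K * K * dg P k Q (I w) x := by gcongr
      _ = K ^ 2 * dg P k Q (I w) x := by ring
      _ ≤ K ^ 22 * dg P k Q (I w) x := hpow _ 2 (Nat.cast_nonneg _) (by norm_num)
  refine
    { two := ?_
      one := hlam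
      xinj := fun p hp q hq h => hP.xinj p (hPl.sub hp) q (hPl.sub hq) h
      conn := fun w hw => hPl.conn w (hWsub hw)
      disj := fun w hw w' hw' h => hPl.disj w (hWsub hw) w' (hWsub hw') h
      cardW := ?_
      cardW' := ?_
      subT := fun w hw => hsubT w (hWsub hw)
      subR := fun w hw => (hTR w (hWsub hw)).2.1
      cardT := ?_
      cardR := ?_
      touch := ?_
      pairs := ?_
      see := ?_
      star := ?_ }
  · calc (2 : ℝ) ≤ K := hK
      _ = K ^ 1 := (pow_one K).symm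
      _ ≤ K ^ 22 := pow_le_pow_right₀ hK1 (by norm_num)
  · calc (#W' : ℝ) ≤ #W := by exact_mod_cast Finset.card_le_card hWsub
      _ ≤ K ^ 1 * lam ^ 2 := by rw [pow_one]; exact hPl.cardW
      _ ≤ K ^ 22 * lam ^ 2 := hpow _ 1 (by positivity) (by norm_num)
  · calc lam ^ 2 ≤ K * #W := hPl.cardW'
      _ ≤ K * (2 * #W') := mul_le_mul_of_nonneg_left hWcard hK0.le
      _ ≤ K * (K * #W') := mul_le_mul_of_nonneg_left
          (mul_le_mul_of_nonneg_right hK (Nat.cast_nonneg _)) hK0.le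
      _ = K ^ 2 * #W' := by ring
      _ ≤ K ^ 22 * #W' := hpow _ 2 (by positivity) (by norm_num)
  · intro w hw
    have hw' := hWsub hw
    have h1 : (#(T' w) : ℝ) ≤ #(T w) := by
      rw [hPl.tch w hw']
      exact_mod_cast Finset.card_le_card (hTR w hw').1
    calc lam * (#(T' w) : ℝ) ≤ lam * #(T w) := mul_le_mul_of_nonneg_left h1 hlam0.le
      _ ≤ K * #Q := hPl.cardT w hw'
      _ = K ^ 1 * #Q := by rw [pow_one]
      _ ≤ K ^ 22 * #Q := hpow _ 1 (by positivity) (by norm_num)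
  · intro w hw
    have hw' := hWsub hw
    have h1 := (hTR w hw').2.2.1
    have h2 := hPl.cardT' w hw'
    rw [hPl.tch w hw'] at h2
    calc (#Q : ℝ) ≤ K * lam * #(Tch P k Q (I w)) := h2
      _ ≤ K * lam * (C2 * K ^ 3 * #(R' w)) := mul_le_mul_of_nonneg_left h1 (by positivity)
      _ ≤ K * lam * (K * K ^ 3 * #(R' w)) := by gcongr
      _ = K ^ 5 * (lam * #(R' w)) := by ring
      _ ≤ K ^ 22 * (lam * #(R' w)) := hpow _ 5 (by positivity) (by norm_num)
      _ = K ^ 22 * lam * #(R' w) := by ring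
  · -- touch
    intro p hp
    set F : Finset ℕ := {w ∈ W' | p ∈ T' w} with hF
    have hFW : ∀ w ∈ F, w ∈ W := fun w hw => hWsub (Finset.mem_filter.1 hw).1
    have h1 : ∑ w ∈ F, #(Par (Tch P k Q (I w)) (I w) p) ≤ #Q := by
      apply sum_card_le
      · intro w hw u hu
        exact Tch_subset P k Q (I w) (Par_subset hu)
      · intro w hw w' hw' hne
        rw [Finset.disjoint_left]
        intro u hu hu'
        exact Set.disjoint_left.1 (hPl.disj w (hFW w hw) w' (hFW w' hw') hne)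
          (sl_of_mem_Par hu) (sl_of_mem_Par hu')
    have h2 : (#F : ℝ) * s ≤ K * #Q := by
      calc (#F : ℝ) * s = ∑ w ∈ F, s := by rw [Finset.sum_const, nsmul_eq_mul]
        _ ≤ ∑ w ∈ F, K * (#(Par (Tch P k Q (I w)) (I w) p) : ℝ) := by
            apply Finset.sum_le_sum
            intro w hw
            have h3 := (hTR w (hFW w hw)).2.2.2.1 p (Finset.mem_filter.1 hw).2
            exact h3.trans (mul_le_mul_of_nonneg_right hC2K (Nat.cast_nonneg _))
        _ = K * ((∑ w ∈ F, #(Par (Tch P k Q (I w)) (I w) p) : ℕ) : ℝ) := by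
            rw [← Finset.mul_sum]; push_cast; rfl
        _ ≤ K * #Q := by
            apply mul_le_mul_of_nonneg_left _ hK0.le
            exact_mod_cast h1
    have h3 : (#F : ℝ) * s ≤ K ^ 2 * lam * s := by
      calc (#F : ℝ) * s ≤ K * #Q := h2
        _ ≤ K * (K * lam * s) := mul_le_mul_of_nonneg_left hQs hK0.le
        _ = K ^ 2 * lam * s := by ring
    calc (#F : ℝ) ≤ K ^ 2 * lam := le_of_mul_le_mul_right h3 hs0
      _ ≤ K ^ 22 * lam := hpow _ 2 (by positivity) (by norm_num)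
  · -- pairs
    intro w hw
    have h1 := (Finset.mem_filter.1 hw).2
    calc lam ^ 2 * (#(pr w) : ℝ) ≤ 2 * K * (#Q : ℝ) ^ 2 := h1
      _ ≤ K * K * (#Q : ℝ) ^ 2 := by gcongr
      _ = K ^ 2 * (#Q : ℝ) ^ 2 := by ring
      _ ≤ K ^ 22 * (#Q : ℝ) ^ 2 := hpow _ 2 (by positivity) (by norm_num)
  · -- see
    intro w hw x hx
    have hw' := hWsub hw
    have h1 := (hTR w hw').2.2.2.2.1 x hx
    calc (#Q : ℝ) ≤ K * lam * s := hQs
      _ ≤ K * lam * (C2 * #{p ∈ T' w | sl p x ∈ I w}) := mul_le_mul_of_nonneg_left h1 (by positivity)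
      _ ≤ K * lam * (K * #{p ∈ T' w | sl p x ∈ I w}) := by gcongr
      _ = K ^ 2 * (lam * #{p ∈ T' w | sl p x ∈ I w}) := by ring
      _ ≤ K ^ 22 * (lam * #{p ∈ T' w | sl p x ∈ I w}) := hpow _ 2 (by positivity) (by norm_num)
      _ = K ^ 22 * lam * #{p ∈ T' w | sl p x ∈ I w} := by ring
  · -- star
    intro S H hH Z hZ
    set w1 : ℝ := K * #Q / lam with hw1
    have hw1' : lam * w1 = K * #Q := by rw [hw1]; field_simp
    have hTw1 : ∀ w ∈ W, (#(Tch P k Q (I w)) : ℝ) ≤ w1 := by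
      intro w hw
      have h1 := hPl.cardT w hw
      rw [hPl.tch w hw] at h1
      have h2 : lam * (#(Tch P k Q (I w)) : ℝ) ≤ lam * w1 := by rw [hw1']; exact h1
      exact le_of_mul_le_mul_left h2 hlam0
    have hw1one : 1 ≤ w1 := by
      have h1 := hTw1 w0 hw0
      have h2 := hT8 w0 hw0
      rw [hPl.tch w0 hw0] at h2
      linarith
    have hw10 : 0 < w1 := by linarith
    have hK3 : 1 ≤ K ^ 3 := one_le_pow₀ hK1
    have h := star P k Q W' I R' (K ^ 3) w1 hP hPl.sub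
      (by calc (2 : ℝ) ≤ K := hK
            _ = K ^ 1 := (pow_one K).symm
            _ ≤ K ^ 3 := pow_le_pow_right₀ hK1 (by norm_num)) hw1one
      (fun w hw => hPl.conn w (hWsub hw))
      (fun w hw w' hw' h => hPl.disj w (hWsub hw) w' (hWsub hw') h)
      (fun w hw => (hTw1 w (hWsub hw)).trans (le_mul_of_one_le_left hw10.le hK3))
      (fun w hw => by
        have h1 := hPl.bd w (hWsub hw)
        have h2 : #(EdBd P k Q (I w)) ≤ #(T w) := by omega
        have h3 : (#(EdBd P k Q (I w)) : ℝ) ≤ #(T w) := by exact_mod_cast h2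
        rw [hPl.tch w (hWsub hw)] at h3
        exact (h3.trans (hTw1 w (hWsub hw))).trans (le_mul_of_one_le_left hw10.le hK3))
      (fun w hw x hx => by
        have h1 := (hTR w (hWsub hw)).2.2.2.2.2 x hx
        have h2 := hPl.cardT' w (hWsub hw)
        rw [hPl.tch w (hWsub hw)] at h2
        have h3 : w1 ≤ K ^ 2 * #(Tch P k Q (I w)) := by
          have h4 : lam * w1 ≤ lam * (K ^ 2 * #(Tch P k Q (I w))) := by
            rw [hw1']
            calc K * (#Q : ℝ) ≤ K * (K * lam * #(Tch P k Q (I w))) :=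
                  mul_le_mul_of_nonneg_left h2 hK0.le
              _ = lam * (K ^ 2 * #(Tch P k Q (I w))) := by ring
          exact le_of_mul_le_mul_left h4 hlam0
        exact root_arith K C2 w1 _ _ hK1 hC2K hw10 (Nat.cast_nonneg _) (Nat.cast_nonneg _) h3 h1)
      S H hH Z hZ
    have hcW : (#W' : ℝ) ≤ K * lam ^ 2 :=
      le_trans (by exact_mod_cast Finset.card_le_card hWsub) hPl.cardW
    exact star_arith K lam C1 #Q #Z #W' w1 (#S + 1) _ hK1 hlam0 hC1 hC1K (Nat.cast_nonneg _)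
      (Nat.cast_nonneg _) (Nat.cast_nonneg _) (by positivity) hw1' hcW h

end Vale.Agent.P065.UB.View
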